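import Vale.Agent.P240.R2.H928.W5
import Vale.Agent.P240.R2.H399.G5
import Vale.Agent.P240.R2.H315.Sum
import Vale.Agent.P240.R2.H179.U5a3

/-!
**`PSU_n(5)`, `n ≥ 6` even, `p = 2`.**
-/

set_option autoImplicit false
set_option linter.all false

namespace Vale.Agent.P240.R2.H928

open Vale.Agent.P240.R2 Vale.Agent.P240.R2.H487

universe u v

theorem stmtI : StmtI.{u} := H399.stmtI H179.stmtU5a H315.stmtU5b

theorem stmtII : StmtII.{u} := H399.stmtII H179.stmtU5a H315.stmtU5b

/-- **block (U5)** -/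
theorem stmtU5 : H138.T6.StmtU5.{u, v} := stmtU5_lit stmtI stmtII

end Vale.Agent.P240.R2.H928
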