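import Vale.Agent.P240.R2.H315.Defs
import Vale.Agent.P240.R2.H938.W6
import Vale.Agent.P240.R2.H584.Top

/-!
`PSU_n(5)`, `n` even, `p = 2`: the form of the solutions used in the blocks with a field
automorphism.
-/

set_option autoImplicit false
set_option linter.all false

namespace Vale.Agent.P240.R2.H928

open Matrix Vale.Agent.P240.R2.AS Vale.Agent.P240.R2.H38
open Vale.Agent.P240.R2.H315 (RForm FR F25)
open Vale.Agent.P240.R2.H986 (ev)
open scoped Classical

universe u v w

noncomputable section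

/-- solutions of the plane conditions for real forms in `S`, with sum zero, with a nonzero value
for the standard form, not compensated by the forms proportional to it -/
def SSol {K : Type u} [Field K] [Fintype K] [StarRing K] {m : ℕ} (S : Subgroup (GU K m)) : Prop :=
  ∃ (W : Finset (GU K m)) (z : GU K m → List (Ln K m) → ℚ),
    (∀ s ∈ W, s ∈ S ∧ RForm s.1) ∧ (∀ s ∈ W, z s ∈ AS.SOL (FR s.1)) ∧ ∑ s ∈ W, z s = 0 ∧
    1 ∈ W ∧ ∃ g, ev (z 1) g [] [] ≠ 0 ∧
      ∀ s ∈ W, s ≠ 1 → (∃ a : K, s.1 = a • (1 : Matrix (Fin m) (Fin m) K)) → ev (z s) g [] [] = 0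

/-- **Case I**: odd dimension, all forms (from U5a, U5b, U5c) -/
def StmtI : Prop :=
  ∀ (K : Type u) [Field K] [Fintype K] [StarRing K], Nat.card K = 5 ^ 2 →
    (∀ x : K, star x = x ^ 5) → ∀ m : ℕ, Odd m → 5 ≤ m → SSol (⊤ : Subgroup (GU K m))

/-- **Case II**: even dimension, the forms with determinant `± 1` -/
def StmtII : Prop :=
  ∀ (K : Type u) [Field K] [Fintype K] [StarRing K], Nat.card K = 5 ^ 2 →
    (∀ x : K, star x = x ^ 5) → ∀ n : ℕ, Even n → 6 ≤ n → SSol (H938.SZ K n 2)

end

end Vale.Agent.P240.R2.H928
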