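import Vale.Agent.P240.R2.H928.Defs

/-!
`PSU_n(5)`, `n` even, `p = 2`: the top cycles with a field automorphism, from solutions with sum
zero.
-/

set_option autoImplicit false
set_option linter.all false

namespace Vale.Agent.P240.R2.H928

open Matrix Vale.Agent.P240.R2.AS Vale.Agent.P240.R2.H38 Vale.Agent.P240.K
open Vale.Agent.P240.R2.H315 (RForm FR F25 rl)
open Vale.Agent.P240.R2.H986 (ev)
open Vale.Agent.P240.R2.H938
open scoped Classical

universe u v w

noncomputable section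

section gen
variable {L : Type u} [Fintype L]

/-- a solution with a nonzero bracket -/
lemma t_pos_of {F : Finset (List L)} {z : List L → ℚ} (hz : z ∈ AS.SOL F) {g : List L}
    (hg : ev z g [] [] ≠ 0) : 0 < AS.t F := by
  have : Module.Finite ℚ (AS.SOL F) := by
    let f : AS.SOL F →ₗ[ℚ] (F → ℚ) :=
      { toFun := fun z w => z.1 w.1
        map_add' := fun _ _ => rfl
        map_smul' := fun _ _ => rfl }
    refine FiniteDimensional.of_injective f ?_
    rw [injective_iff_map_eq_zero]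
    intro z hz
    apply Subtype.ext
    funext w
    by_cases hw : w ∈ F
    · exact congrFun hz ⟨w, hw⟩
    · exact z.2.1 w hw
  have h1 : Module.Finite ℚ ((AS.SOL F).map (AS.bm L)) := inferInstance
  rw [AS.t, Module.finrank_pos_iff_exists_ne_zero]
  refine ⟨⟨AS.bm L z, Submodule.mem_map_of_mem hz⟩, fun h => hg ?_⟩
  exact congrFun (congrArg Subtype.val h) g

end gen

section
variable {K : Type u} [Field K] [Fintype K] [StarRing K] {m : ℕ}
variable {S : Subgroup (GU K m)} {p : ℕ} {ζ : K} {G : Type v} [Group G]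

lemma FR_sub (s : Matrix (Fin m) (Fin m) K) : FR s ⊆ Fr K m := Finset.filter_subset _ _

lemma FR_perm (s : Matrix (Fin m) (Fin m) K) : ∀ w ∈ FR s, ∀ w', w.Perm w' → w' ∈ FR s := by
  intro w hw w' hww
  obtain ⟨h1, h2⟩ := Finset.mem_filter.1 hw
  refine Finset.mem_filter.2 ⟨?_, fun P hP => h2 P (hww.mem_iff.2 hP)⟩
  rw [AS.mem_Fr] at h1 ⊢
  exact ⟨by rw [← hww.length_eq, h1.1], H938.orth_perm hww h1.2⟩

lemma FR_fix {s : Matrix (Fin m) (Fin m) K} {w : List (Ln K m)} (hw : w ∈ FR s) {P : Ln K m}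
    (hP : P ∈ w) : s * P.1.map star * star s = P.1 :=
  (Finset.mem_filter.1 hw).2 P hP

/-- multiples of the form have the same real lines -/
lemma FR_smul {s s' : GU K m} {a : K} (hm : 0 < m) (h : s'.1 = a • s.1) : FR s'.1 = FR s.1 := by
  have ha : a * star a = 1 := by
    have h1 := gu_star s'
    rw [h, star_smul, smul_mul_smul_comm, gu_star] at h1
    have h2 := congrFun (congrFun h1 ⟨0, hm⟩) ⟨0, hm⟩
    simpa using h2
  refine Finset.filter_congr fun w _ => ?_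
  refine forall₂_congr fun P _ => ?_
  rw [rl, rl, h, star_smul, smul_mul_assoc, smul_mul_smul_comm, ha, one_smul]

/-- what the blocks with a field automorphism use -/
def SolG (p : ℕ) (S : Subgroup (GU K m)) (g : GU K m) (σ : K ≃+* K) : Prop :=
  p = 2 ∧ g = 1 ∧ (∀ x, σ x = star x) ∧ SSol S

/-- the real frames -/
lemma SolG.frames {g : GU K m} {σ : K ≃+* K} (h : SolG p S g σ) :
    ∃ F ⊆ Fr K m, (∀ w ∈ F, ∀ w', w.Perm w' → w' ∈ F) ∧
      (∀ w ∈ F, ∀ P ∈ w, g.1 * P.1.map σ * star g.1 = P.1) ∧ 0 < AS.t F := by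
  obtain ⟨-, rfl, hσ, W, z, hW, hz, -, h1, l, hl, -⟩ := h
  refine ⟨FR (1 : GU K m).1, FR_sub _, FR_perm _, fun w hw P hP => ?_, t_pos_of (hz 1 h1) hl⟩
  have h2 : P.1.map σ = P.1.map star := by
    ext i j
    exact hσ _
  rw [h2]
  exact FR_fix hw hP

variable [Finite G] [Fact p.Prime]

/-- **the top cycle with a conjugate of a field automorphism** -/
lemma t3 (𝕜 : Type w) [Field 𝕜] {ε : S →* G} (hP : Pack p ζ S ε) {t : G} {g₀ : GU K m}
    {σ : K ≃+* K} (ht : ActsS ε t g₀ σ) (hfr : ∀ h ∈ S, g₀ * gmap σ ht.1 h * g₀⁻¹ ∈ S)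
    (hσ : σ ζ = ζ) (htp : t ^ p = 1) (htL : t ∉ ε.range) (hcnt : SolG p S g₀ σ) :
    ∃ w ∈ Fr K m, ∃ y, y * t⁻¹ ∈ ε.range ∧ y ^ p = 1 ∧
      (∀ a ∈ De (eS S ζ 1 ε) w, y * a = a * y) ∧
      TC 𝕜 p (ε.range ⊔ Subgroup.zpowers t) (De (eS S ζ 1 ε) w ⊔ Subgroup.zpowers y) := by
  obtain ⟨rfl, rfl, hst, W, z, hW, hz, hsum, h1W, g, hg, hg0⟩ := hcnt
  have hc := hP.comb
  have hm : 0 < m := by have := hP.hm; omega
  haveI : Finite (Matrix (Fin m) (Fin m) K) := inferInstanceAs (Finite (Fin m → Fin m → K))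
  haveI : Finite (GU K m) := Subtype.finite
  haveI : Finite S := Subtype.finite
  have hmap : ∀ A : Matrix (Fin m) (Fin m) K, A.map σ = A.map star := by
    intro A
    ext i j
    exact hst _
  have hσs : ∀ a, σ (star a) = star (σ a) := ht.1
  have hfr' : ∀ h ∈ S, gmap σ hσs h ∈ S := by
    intro h hh
    have := hfr h hh
    rwa [one_mul, inv_one, mul_one] at this
  have hact : ∀ h : S, t * ε h * t⁻¹ = ε ⟨gmap σ hσs h.1, hfr' h.1 h.2⟩ := by
    intro h
    refine ht.2 h _ ?_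
    show h.1.1.map σ = (1 : GU K m).1 * h.1.1.map σ * star (1 : GU K m).1
    have e1 : ((1 : GU K m) : Matrix (Fin m) (Fin m) K) = 1 := rfl
    rw [e1, star_one, one_mul, mul_one]
  have htt : t * t = 1 := by rw [← pow_two, htp]
  have hti : t⁻¹ = t := inv_eq_of_mul_eq_one_left htt
  have hεL : ∀ h : S, ε h ∈ ε.range := fun h => ⟨h, rfl⟩
  have htn : ∀ x ∈ ε.range, t * x * t ∈ ε.range := by
    rintro _ ⟨h, rfl⟩
    have h1 := hact h
    rw [hti] at h1
    rw [h1]
    exact hεL _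
  -- the elements
  let yy : GU K m → G := fun s => if h : s ∈ S then ε ⟨s, h⟩ * t else t
  have hyy : ∀ s : GU K m, ∀ h : s ∈ S, yy s = ε ⟨s, h⟩ * t := fun s h => dif_pos h
  have hyt : ∀ s, yy s * t⁻¹ ∈ ε.range := by
    intro s
    by_cases h : s ∈ S
    · rw [hyy s h, mul_inv_cancel_right]
      exact hεL _
    · have : yy s = t := dif_neg h
      rw [this, mul_inv_cancel]
      exact Subgroup.one_mem _
  have hyp : ∀ s ∈ W, yy s ^ 2 = 1 := by
    intro s hs
    obtain ⟨h1, h2⟩ := hW s hs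
    rw [hyy s h1, pow_two]
    have h3 := hact ⟨s, h1⟩
    rw [hti] at h3
    have h4 : (ε ⟨s, h1⟩ * t) * (ε ⟨s, h1⟩ * t) = ε ⟨s, h1⟩ * (t * ε ⟨s, h1⟩ * t) := by group
    rw [h4, h3, ← map_mul]
    have h5 : (⟨s, h1⟩ * ⟨gmap σ hσs s, hfr' s h1⟩ : S) = 1 := by
      apply Subtype.ext
      apply Subtype.ext
      show s.1 * s.1.map σ = 1
      rw [hmap]
      exact h2
    exact (congrArg ε h5).trans (map_one ε)
  have hactS : ∀ s ∈ W, ActsS ε (yy s) s σ := by
    intro s hs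
    obtain ⟨h1, h2⟩ := hW s hs
    refine ⟨ht.1, fun a b hab => ?_⟩
    rw [hyy s h1]
    have h3 : ε ⟨s, h1⟩ * t * ε a * (ε ⟨s, h1⟩ * t)⁻¹ =
        ε ⟨s, h1⟩ * (t * ε a * t⁻¹) * (ε ⟨s, h1⟩)⁻¹ := by group
    rw [h3, hact, ← map_inv, ← map_mul, ← map_mul]
    congr 1
    apply Subtype.ext
    apply Subtype.ext
    show s.1 * a.1.1.map σ * star s.1 = b.1.1
    exact hab.symm
  have hcomm : ∀ s ∈ W, ∀ u v : List (Ln K m), u ++ v ∈ FR s.1 →
      yy s * eS S ζ 1 ε u = eS S ζ 1 ε u * yy s := by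
    intro s hs u v huv
    refine hP.comm_lit (hactS s hs) hσ
      (List.pairwise_append.1 ((mem_Fr K).1 (FR_sub _ huv)).2).1 fun P hP => ?_
    rw [hmap]
    exact FR_fix huv (by simp [hP])
  -- equal elements have the same real lines
  have hsame : ∀ s ∈ W, ∀ s' ∈ W, yy s = yy s' → FR s'.1 = FR s.1 := by
    intro s hs s' hs' h
    have h1 := (hW s hs).1
    have h1' := (hW s' hs').1
    rw [hyy s h1, hyy s' h1'] at h
    have h2 : ε (⟨s', h1'⟩ * ⟨s, h1⟩⁻¹) = 1 := by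
      rw [map_mul, map_inv, mul_right_cancel h, mul_inv_cancel]
    obtain ⟨a, ha⟩ := hP.ker _ h2
    refine FR_smul (a := a) hm ?_
    have h3 : s'.1 * star s.1 = a • (1 : Matrix (Fin m) (Fin m) K) := ha
    calc s'.1 = s'.1 * (star s.1 * s.1) := by rw [star_gu, mul_one]
      _ = (s'.1 * star s.1) * s.1 := by rw [mul_assoc]
      _ = a • s.1 := by rw [h3, smul_mul_assoc, one_mul]
  set Y : Finset G := W.image yy with hY
  let Fy : G → Finset (List (Ln K m)) := fun y =>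
    if h : ∃ s ∈ W, yy s = y then FR h.choose.1 else ∅
  have hFy : ∀ s ∈ W, Fy (yy s) = FR s.1 := by
    intro s hs
    have h : ∃ s' ∈ W, yy s' = yy s := ⟨s, hs, rfl⟩
    have h1 : Fy (yy s) = FR h.choose.1 := dif_pos h
    rw [h1]
    exact hsame s hs _ h.choose_spec.1 h.choose_spec.2.symm
  have hr : ∀ y ∈ Y, ∃ s ∈ W, yy s = y := fun y hy => Finset.mem_image.1 hy
  let zz : G → List (Ln K m) → ℚ := fun y => ∑ s ∈ W.filter (fun s => yy s = y), z s
  have hzz : ∀ y ∈ Y, zz y ∈ AS.SOL (Fy y) := by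
    intro y hy
    refine Submodule.sum_mem _ fun s hs' => ?_
    obtain ⟨hs, rfl⟩ := Finset.mem_filter.1 hs'
    rw [hFy s hs]
    exact hz s hs
  have hzsum : ∑ y ∈ Y, zz y = 0 := by
    rw [← hsum]
    exact Finset.sum_fiberwise_of_maps_to (fun s hs => Finset.mem_image_of_mem _ hs) z
  have hd : H945.SemiData 2 (Fr K m) (eS S ζ 1 ε) ε.range (ε.range ⊔ Subgroup.zpowers t) Y Fy := by
    refine ⟨fun u v _ => hεL _, le_sup_left, ?_, ?_, ?_, ?_, ?_, ?_, ?_⟩
    · intro y hy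
      obtain ⟨s, hs, rfl⟩ := hr y hy
      exact hyp s hs
    · intro y hy
      obtain ⟨s, hs, rfl⟩ := hr y hy
      have h2 : yy s = (yy s * t⁻¹) * t := by group
      rw [h2]
      exact Subgroup.mul_mem _ (Subgroup.mem_sup_left (hyt s))
        (Subgroup.mem_sup_right (Subgroup.mem_zpowers t))
    · intro y hy h1
      obtain ⟨s, hs, rfl⟩ := hr y hy
      apply htL
      have h2 : t = (yy s * t⁻¹)⁻¹ * yy s := by group
      rw [h2]
      exact Subgroup.mul_mem _ (Subgroup.inv_mem _ (hyt s)) h1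
    · intro y hy y' hy'
      obtain ⟨s, hs, rfl⟩ := hr y hy
      obtain ⟨s', hs', rfl⟩ := hr y' hy'
      have h3 : (yy s)⁻¹ * yy s' = t⁻¹ * ((yy s * t⁻¹)⁻¹ * (yy s' * t⁻¹)) * t := by group
      rw [h3, hti]
      have h4 : (yy s * t)⁻¹ * (yy s' * t) ∈ ε.range := by
        have h5 := Subgroup.mul_mem _ (Subgroup.inv_mem _ (hyt s)) (hyt s')
        rwa [hti] at h5
      exact htn _ h4
    · intro y hy
      obtain ⟨s, hs, rfl⟩ := hr y hy
      rw [hFy s hs]
      exact FR_sub _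
    · intro y hy
      obtain ⟨s, hs, rfl⟩ := hr y hy
      rw [hFy s hs]
      exact FR_perm _
    · intro y hy u v huv
      obtain ⟨s, hs, rfl⟩ := hr y hy
      rw [hFy s hs] at huv
      exact (hcomm s hs u v huv).symm
  have hne : AS.bm (Ln K m) (zz (yy 1)) ≠ 0 := by
    intro h0
    apply hg
    have h1 : AS.bm (Ln K m) (zz (yy 1)) g = ∑ s ∈ W.filter (fun s => yy s = yy 1),
        ev (z s) g [] [] := by
      show AS.bm (Ln K m) (∑ s ∈ W.filter (fun s => yy s = yy 1), z s) g = _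
      rw [map_sum, Finset.sum_apply]
      rfl
    rw [h0] at h1
    have h2 : ∑ s ∈ W.filter (fun s => yy s = yy 1), ev (z s) g [] [] = ev (z 1) g [] [] := by
      refine Finset.sum_eq_single_of_mem 1 (Finset.mem_filter.2 ⟨h1W, rfl⟩) fun s hs hs1 => ?_
      obtain ⟨hs, hs2⟩ := Finset.mem_filter.1 hs
      refine hg0 s hs hs1 ?_
      have h3 := (hW s hs).1
      rw [hyy s h3, hyy 1 (Subgroup.one_mem _)] at hs2
      have h4 : ε ⟨1, Subgroup.one_mem S⟩ = 1 := map_one ε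
      rw [h4] at hs2
      exact hP.ker ⟨s, h3⟩ (mul_right_cancel hs2)
    rw [h2] at h1
    exact h1.symm
  obtain ⟨y, hy, w, hw, α, φ, h1, -⟩ := H584.top_of_sum hP.hm hc hd zz hzz hzsum
    (Finset.mem_image_of_mem yy h1W) hne 𝕜
  obtain ⟨s, hs, rfl⟩ := hr y hy
  refine ⟨w, hd.sub _ hy hw, yy s, hyt s, hyp s hs, fun a ha => ?_, α, φ, ?_⟩
  · have h2 : De (eS S ζ 1 ε) w ≤ Subgroup.centralizer ({yy s} : Set G) := by
      rw [De, Subgroup.closure_le]
      rintro _ ⟨u, v, rfl, rfl⟩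
      rw [hFy s hs] at hw
      exact Subgroup.mem_centralizer_iff.2 (by
        rintro _ rfl
        exact hcomm s hs u v hw)
    exact Subgroup.mem_centralizer_iff.1 (h2 ha) (yy s) rfl
  · rw [sup_comm (De (eS S ζ 1 ε) w) (Subgroup.zpowers (yy s))]
    exact h1

end

end

end Vale.Agent.P240.R2.H928
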