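import Vale.Agent.P240.R2.H928.W1
import Vale.Agent.P240.R2.H938.W10

/-!
`PSU_n(5)`, `n` even, `p = 2`: the packages, as in `H938`, with the solutions in place of the counts.
-/

set_option autoImplicit false
set_option linter.all false

namespace Vale.Agent.P240.R2.H928

open Matrix Vale.Agent.P240.R2.H38 Vale.Agent.P240.K Vale.Agent.P240.R2.H487
open Vale.Agent.P240.R2.AS hiding SU
open Vale.Agent.P240.R2.H402 (RR RR_one RR_add RR_smul det_RR)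
open Vale.Agent.P240.R2.H938 hiding HI HII lit1 lit2 coreI2 coreI3 coreII2 coreII3 TEt TEet TESt TESte
  TES2 TESett locTopF_of_C
open scoped Classical

universe u v w

noncomputable section

section
variable {K : Type u} [Field K] [Fintype K] [StarRing K] {m : ℕ}
variable {p : ℕ} {ζ : K} {G : Type v} [Group G] {L : Subgroup G} {ε : SU K (m + 1) →* G}

variable [Finite G] [Fact p.Prime]

/-- package I, centralizer of a field automorphism -/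
lemma coreI2 (𝕜 : Type w) [Field 𝕜] (hN : NumD K p (m + 1) ζ) (hε : SHom p L ε) {t : G}
    {g₀ : GU K m} {σ : K ≃+* K} (hact : ActsS (ε.comp jj) t g₀ σ) (hσ : σ ζ = ζ)
    (hcnt : SolG p (⊤ : Subgroup (GU K m)) g₀ σ) :
    ∃ v : GU K (m + 1), Au p ε v ≤ (ε.comp jj).range ∧ (∀ a ∈ Au p ε v, t * a = a * t) ∧
      TC 𝕜 p ((ε.comp jj).range ⊓ Subgroup.centralizer ({t} : Set G)) (Au p ε v) := by
  have hP := hN.pack hε
  obtain ⟨F, hF, hp, hfix, htF⟩ := hcnt.frames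
  obtain ⟨w, hw, h0, h1⟩ := hP.t2 𝕜 hact hσ hF hp hfix htF
  obtain ⟨v, h2, h3⟩ := De_Au hN hε hw
  rw [h2] at h0 h1
  exact ⟨v, h3, h0, h1⟩

/-- package I, with a field automorphism -/
lemma coreI3 (𝕜 : Type w) [Field 𝕜] (hN : NumD K p (m + 1) ζ) (hε : SHom p L ε) {t : G}
    {g₀ : GU K m} {σ : K ≃+* K} (hact : ActsS (ε.comp jj) t g₀ σ) (hσ : σ ζ = ζ) (htp : t ^ p = 1)
    (htL : t ∉ L) (hcnt : SolG p (⊤ : Subgroup (GU K m)) g₀ σ) :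
    ∃ (v : GU K (m + 1)) (y : G), Au p ε v ≤ (ε.comp jj).range ∧ y * t⁻¹ ∈ (ε.comp jj).range ∧
      y ^ p = 1 ∧ (∀ a ∈ Au p ε v, y * a = a * y) ∧
      TC 𝕜 p ((ε.comp jj).range ⊔ Subgroup.zpowers t) (Au p ε v ⊔ Subgroup.zpowers y) := by
  have hP := hN.pack hε
  have hle : (ε.comp jj).range ≤ L := by
    rw [← hε.range]
    rintro _ ⟨x, rfl⟩
    exact ⟨_, rfl⟩
  obtain ⟨w, hw, y, h0, h1, h2, h3⟩ := t3 𝕜 hP hact (fun _ _ => trivial) hσ htp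
    (fun h => htL (hle h)) hcnt
  obtain ⟨v, h4, h5⟩ := De_Au hN hε hw
  rw [h4] at h2 h3
  exact ⟨v, y, h5, h0, h1, h2, h3⟩

end

section
variable {K : Type u} [Field K] [Fintype K] [StarRing K] {n : ℕ}
variable {p : ℕ} {ζ : K} {G : Type v} [Group G] {L : Subgroup G} {ε : SU K n →* G} {s : GU K n}
  {e₁ : G}

variable [hp : Fact p.Prime] [Finite G]

/-- package II, centralizer of a field automorphism -/
lemma coreII2 (𝕜 : Type w) [Field 𝕜] (h : P2 p ζ L ε s e₁) {s₀ : GU K n} (h₀ : Dg p ζ s₀)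
    {t : G} {g₀ : GU K n} {σ : K ≃+* K} (ht : ActsS ε t g₀ σ) (hσ : σ ζ = ζ)
    (hte : t * e₁ = e₁ * t) (hgs : g₀ * gmap σ ht.1 s = s * g₀) (hcnt : SolG p (SZ K n p) g₀ σ) :
    ∃ (v : GU K n) (e' : G), e' * e₁⁻¹ ∈ L ∧ e' ^ p = 1 ∧ (∀ a ∈ Au p ε v, e' * a = a * e') ∧
      (∀ a ∈ Au p ε v, t * a = a * t) ∧ t * e' = e' * t ∧
      TC 𝕜 p ((L ⊔ Subgroup.zpowers e₁) ⊓ Subgroup.centralizer ({t} : Set G))
        (Au p ε v ⊔ Subgroup.zpowers e') := by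
  obtain ⟨F, hF, hpm, hfix, htF⟩ := hcnt.frames
  obtain ⟨w, hw, h0, h1⟩ := h.pack.t2 𝕜 (h.acts ht hσ hte hgs) hσ hF hpm hfix htF
  obtain ⟨v, h2, h3⟩ := h.De_ev h₀ hw
  rw [h2] at h0 h1
  rw [h.range_hom] at h1
  exact ⟨v, h.ev h₀ v, h.ev_mem h₀ v, h.ev_pow h₀ v, h3,
    fun a ha => h0 a (Subgroup.mem_sup_left ha),
    h0 _ (Subgroup.mem_sup_right (Subgroup.mem_zpowers _)), h1⟩

/-- package II, with a field automorphism -/
lemma coreII3 (𝕜 : Type w) [Field 𝕜] (h : P2 p ζ L ε s e₁) {s₀ : GU K n} (h₀ : Dg p ζ s₀)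
    {t : G} {g₀ : GU K n} {σ : K ≃+* K} (ht : ActsS ε t g₀ σ) (hσ : σ ζ = ζ)
    (hte : t * e₁ = e₁ * t) (hgs : g₀ * gmap σ ht.1 s = s * g₀) (htp : t ^ p = 1)
    (htL : t ∉ L ⊔ Subgroup.zpowers e₁) (hcnt : SolG p (SZ K n p) g₀ σ) :
    ∃ (v : GU K n) (e' y : G), e' * e₁⁻¹ ∈ L ∧ e' ^ p = 1 ∧ y * t⁻¹ ∈ L ⊔ Subgroup.zpowers e₁ ∧
      y ^ p = 1 ∧ (∀ a ∈ Au p ε v, e' * a = a * e') ∧ (∀ a ∈ Au p ε v, y * a = a * y) ∧
      e' * y = y * e' ∧ TC 𝕜 p (L ⊔ Subgroup.zpowers e₁ ⊔ Subgroup.zpowers t)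
        (Au p ε v ⊔ Subgroup.zpowers e' ⊔ Subgroup.zpowers y) := by
  have hfr : ∀ x ∈ SZ K n p, g₀ * gmap σ ht.1 x * g₀⁻¹ ∈ SZ K n p := fun x hx =>
    SZ_conj g₀ _ (SZ_gmap σ ht.1 x hx)
  obtain ⟨w, hw, y, h0, h1, h2, h3⟩ := t3 𝕜 h.pack (h.acts ht hσ hte hgs) hfr hσ htp
    (by rw [h.range_hom]; exact htL) hcnt
  obtain ⟨v, h4, h5⟩ := h.De_ev h₀ hw
  rw [h4] at h2 h3
  rw [h.range_hom] at h0 h3
  exact ⟨v, h.ev h₀ v, y, h.ev_mem h₀ v, h.ev_pow h₀ v, h0, h1, h5,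
    fun a ha => h2 a (Subgroup.mem_sup_left ha),
    (h2 _ (Subgroup.mem_sup_right (Subgroup.mem_zpowers _))).symm, h3⟩

end

/-- literal form and count in dimension `m` -/
def HI (m p : ℕ) (K : Type u) [Field K] [Fintype K] [StarRing K] (ζ : K) : Prop :=
  ∀ σ : K ≃+* K, (∀ a, σ (star a) = star (σ a)) → (σ : RingAut K) ^ p = 1 → σ ≠ RingEquiv.refl K →
    σ ζ = ζ → ∀ a : Fin m → K, (∀ i, a i * star (a i) = 1) →
      (∀ i j, ∏ k ∈ Finset.range p, (σ^[k]) (a i) = ∏ k ∈ Finset.range p, (σ^[k]) (a j)) →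
      (∃ (v : GU K m) (b : K), diagonal a * v.1.map σ = b • v.1) ∧
        SolG p (⊤ : Subgroup (GU K m)) 1 σ

/-- literal form and count in dimension `m + 1` -/
def HII (m p : ℕ) (K : Type u) [Field K] [Fintype K] [StarRing K] (ζ : K) : Prop :=
  ∀ σ : K ≃+* K, (∀ a, σ (star a) = star (σ a)) → (σ : RingAut K) ^ p = 1 → σ ≠ RingEquiv.refl K →
    σ ζ = ζ → ∀ a : Fin (m + 1) → K, (∀ i, a i * star (a i) = 1) →
      (∀ i j, ∏ k ∈ Finset.range p, (σ^[k]) (a i) = ∏ k ∈ Finset.range p, (σ^[k]) (a j)) →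
      ∀ ζ' : K, ζ' ≠ 1 → ζ' ^ p = 1 → ∃ (k : ℕ) (u d : GU K (m + 1)) (b : K),
        diagonal (fun i => a i * (if i = Fin.last m then ζ' ^ k else 1)) * u.1.map σ =
          b • (u.1 * d.1) ∧ SolG p (SZ K (m + 1) p) d σ

section
variable {K : Type u} [Field K] [Fintype K] [StarRing K] {m : ℕ}
variable {p : ℕ} {ζ : K} {G : Type v} [Group G] {L : Subgroup G} {ε : SU K (m + 1) →* G}

/-- the literal form in package I -/
lemma lit1 [Fact p.Prime] (hN : NumD K p (m + 1) ζ) (hI : HI m p K ζ) {t : G} {g : GU K (m + 1)}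
    {σ : K ≃+* K} {a : Fin (m + 1) → K} (ht : ActsS ε t g σ) (hg : g.1 = diagonal a)
    (hσζ : σ ζ = ζ) (hσp : (σ : RingAut K) ^ p = 1) (hσ : σ ≠ RingEquiv.refl K)
    (ha : ∀ i, a i * star (a i) = 1)
    (hprod : ∀ i j, ∏ k ∈ Finset.range p, (σ^[k]) (a i) = ∏ k ∈ Finset.range p, (σ^[k]) (a j)) :
    SolG p (⊤ : Subgroup (GU K m)) 1 σ ∧ ∃ (v : GU K m),
      ActsS ((ε.comp (cjU (rr v 1 (by simp)))).comp jj) t 1 σ := by
  obtain ⟨⟨v, b, hv⟩, hcnt⟩ := hI σ ht.1 hσp hσ hσζ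
    (fun i => a (finSumFinEquiv (Sum.inl i))) (fun i => ha _) (fun i j => hprod _ _)
  refine ⟨hcnt, v, ?_⟩
  have h1 := acts_tw ht (rr v 1 (by simp))
  have hd : ∀ i, a (finSumFinEquiv (Sum.inl i : Fin m ⊕ Fin 1)) *
      star (a (finSumFinEquiv (Sum.inl i : Fin m ⊕ Fin 1))) = 1 := fun i => ha _
  have hm : 0 < m := by have := hN.hn; omega
  have h2 : ((rr v 1 (by simp))⁻¹ * g * gmap σ ht.1 (rr v 1 (by simp)) : GU K (m + 1)).1 =
      RR (v⁻¹ * dgU _ hd * gmap σ ht.1 v : GU K m).1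
        (a (finSumFinEquiv (Sum.inr 0 : Fin m ⊕ Fin 1))) := by
    rw [gu_mul, gu_mul, gu_mul, gu_mul, gu_inv, gu_inv, gmap_coe, gmap_coe, hg, diag_RR, rr_coe,
      RR_map, RR_star, RR_mul, RR_mul, map_one, star_one, one_mul, mul_one]
    rfl
  have h3 := acts_jj (ha _) h2 h1
  refine h3.smul hm (a := b) ?_
  rw [gu_mul, gu_mul, gu_inv, gmap_coe, mul_assoc]
  show star v.1 * (diagonal _ * v.1.map σ) = _
  rw [hv, mul_smul_comm, star_gu]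
  rfl

/-- the literal form in package II -/
lemma lit2 [Fact p.Prime] (hN : NumD K p (m + 1) ζ) (hII : HII m p K ζ) {t e₁ : G}
    {g : GU K (m + 1)} {σ : K ≃+* K} {a : Fin (m + 1) → K} (ht : ActsS ε t g σ)
    (hg : g.1 = diagonal a) (hσζ : σ ζ = ζ) (hσp : (σ : RingAut K) ^ p = 1)
    (hσ : σ ≠ RingEquiv.refl K) (ha : ∀ i, a i * star (a i) = 1)
    (hprod : ∀ i j, ∏ k ∈ Finset.range p, (σ^[k]) (a i) = ∏ k ∈ Finset.range p, (σ^[k]) (a j))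
    {ζ' : K} {s : GU K (m + 1)} (h1 : ζ' ≠ 1) (h2 : ζ' ^ p = 1)
    (hs : s.1 = diagonal (fun i => if i = Fin.last m then ζ' else 1))
    (hact : ∀ x, e₁ * ε x * e₁⁻¹ = ε (cjU s x)) :
    σ ζ' = ζ' ∧ ∃ (k : ℕ) (u d : GU K (m + 1)) (hd : ActsS (ε.comp (cjU u)) (t * e₁ ^ k) d σ),
      d * gmap σ hd.1 (u⁻¹ * s * u) = (u⁻¹ * s * u) * d ∧ SolG p (SZ K (m + 1) p) d σ := by
  have hp : p.Prime := Fact.out
  haveI : NeZero p := ⟨hp.ne_zero⟩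
  have hprim : IsPrimitiveRoot ζ p := by
    rw [← orderOf_eq_prime hN.pow hN.ne]
    exact IsPrimitiveRoot.orderOf ζ
  have hσζ' : σ ζ' = ζ' := by
    obtain ⟨j, -, hj⟩ := hprim.eq_pow_of_pow_eq_one h2
    rw [← hj, map_pow, hσζ]
  obtain ⟨k, u, d, b, hu, hcnt⟩ := hII σ ht.1 hσp hσ hσζ a ha hprod ζ' h1 h2
  refine ⟨hσζ', k, u, d, ?_⟩
  have hn0 : 0 < m + 1 := Nat.succ_pos m
  have hsσ : gmap σ ht.1 s = s := by
    apply Subtype.ext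
    show s.1.map σ = s.1
    rw [hs, diagonal_map (map_zero σ)]
    congr 1
    funext i
    show σ (if i = Fin.last m then ζ' else 1) = _
    split_ifs
    · exact hσζ'
    · exact map_one σ
  have hsk : gmap σ ht.1 (s ^ k) = s ^ k := by
    apply Subtype.ext
    show (s.1 ^ k).map σ = s.1 ^ k
    have h3 : s.1.map σ = s.1 := congrArg Subtype.val hsσ
    have h4 : ∀ j : ℕ, (s.1 ^ j).map σ = s.1 ^ j := by
      intro j
      induction j with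
      | zero => rw [pow_zero, map_one_mat]
      | succ j ih => rw [pow_succ, map_mul_mat, ih, h3]
    exact h4 k
  have hD : (g * gmap σ ht.1 (s ^ k)).1 =
      diagonal (fun i => a i * (if i = Fin.last m then ζ' ^ k else 1)) := by
    rw [hsk, gu_mul, hg]
    show diagonal a * s.1 ^ k = _
    rw [hs, diagonal_pow, diagonal_mul_diagonal]
    congr 1
    funext i
    show a i * (if i = Fin.last m then ζ' else 1) ^ k = _
    split_ifs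
    · rfl
    · rw [one_pow]
  have h3 := acts_tw (acts_mul_refl ht (act_pow' hact k)) u
  have h4 : (u⁻¹ * (g * gmap σ ht.1 (s ^ k)) * gmap σ ht.1 u : GU K (m + 1)).1 = b • d.1 := by
    rw [gu_mul, gu_mul, gu_inv, gmap_coe, hD, mul_assoc, hu, mul_smul_comm, ← mul_assoc, star_gu,
      one_mul]
  have hd := h3.smul hn0 (a := b) h4
  refine ⟨hd, ?_, hcnt⟩
  have hb : b ≠ 0 := by
    intro h0
    rw [h0, zero_smul] at h4
    have h5 := gu_star (u⁻¹ * (g * gmap σ ht.1 (s ^ k)) * gmap σ ht.1 u : GU K (m + 1))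
    rw [h4, zero_mul] at h5
    have h6 := congrFun (congrFun h5 ⟨0, hn0⟩) ⟨0, hn0⟩
    rw [one_apply_eq, Matrix.zero_apply] at h6
    exact zero_ne_one h6
  -- the matrix equation
  set D : GU K (m + 1) := g * gmap σ ht.1 (s ^ k) with hDdef
  have hDs : D * s = s * D := by
    apply Subtype.ext
    show D.1 * s.1 = s.1 * D.1
    rw [hD, hs, diagonal_mul_diagonal, diagonal_mul_diagonal]
    congr 1
    funext i
    ring
  have h5 : D.1 * (gmap σ ht.1 u).1 = b • (u.1 * d.1) := by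
    rw [hD]
    exact hu
  have h6 : gmap σ hd.1 (u⁻¹ * s * u) = (gmap σ ht.1 u)⁻¹ * s * gmap σ ht.1 u := by
    have h7 : gmap σ ht.1 (u⁻¹ * s * u) = (gmap σ ht.1 u)⁻¹ * gmap σ ht.1 s * gmap σ ht.1 u := by
      apply Subtype.ext
      show (star u.1 * s.1 * u.1).map σ = star (u.1.map σ) * s.1.map σ * u.1.map σ
      rw [map_mul_mat, map_mul_mat, map_star_mat ht.1]
    have h8 : gmap σ hd.1 (u⁻¹ * s * u) = gmap σ ht.1 (u⁻¹ * s * u) := rfl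
    rw [h8, h7, hsσ]
  rw [h6]
  have h7 : ∀ x y : GU K (m + 1), b • (u.1 * x.1) = b • (u.1 * y.1) → x = y := by
    intro x y hxy
    apply Subtype.ext
    have h8 := smul_right_injective _ hb hxy
    have h9 := congrArg (fun A => star u.1 * A) h8
    simp only [← mul_assoc, star_gu, one_mul] at h9
    exact h9
  apply h7
  show b • (u.1 * (d.1 * (star (gmap σ ht.1 u).1 * s.1 * (gmap σ ht.1 u).1))) =
    b • (u.1 * (star u.1 * s.1 * u.1 * d.1))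
  calc b • (u.1 * (d.1 * (star (gmap σ ht.1 u).1 * s.1 * (gmap σ ht.1 u).1)))
      = (b • (u.1 * d.1)) * (star (gmap σ ht.1 u).1 * s.1 * (gmap σ ht.1 u).1) := by
        simp only [smul_mul_assoc, mul_assoc]
    _ = D.1 * ((gmap σ ht.1 u).1 * star (gmap σ ht.1 u).1) * s.1 * (gmap σ ht.1 u).1 := by
        rw [← h5]; simp only [mul_assoc]
    _ = (D.1 * s.1) * (gmap σ ht.1 u).1 := by rw [gu_star, mul_one]
    _ = (s.1 * D.1) * (gmap σ ht.1 u).1 := by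
        have h8 : D.1 * s.1 = s.1 * D.1 := congrArg Subtype.val hDs
        rw [h8]
    _ = s.1 * (b • (u.1 * d.1)) := by rw [mul_assoc, h5]
    _ = b • ((u.1 * star u.1) * s.1 * u.1 * d.1) := by
        rw [gu_star, one_mul, mul_smul_comm, mul_assoc]
    _ = _ := by simp only [mul_assoc]

variable [Finite G] [Fact p.Prime]

/-- (Tt) -/
lemma TEt (𝕜 : Type w) [Field 𝕜] (hN : NumD K p (m + 1) ζ) (hε : SHom p L ε)
    (C1 : StmtC1.{u, v}) (hI : HI m p K ζ) {t : G} (ht : t ∈ Subgroup.normalizer (L : Set G))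
    (htQ : t ∉ Qd ε) (htp : t ^ p = 1) (htc : ∀ a ∈ Au p ε 1, t * a = a * t) :
    ∃ v : GU K (m + 1), (∀ c ∈ Au p ε v, t * c = c * t) ∧
      TC 𝕜 p (L ⊓ Subgroup.centralizer ({t} : Set G)) (Au p ε v) := by
  obtain ⟨g, σ, a, h1, h2, h3, h4, h5, h6, h7⟩ := exists_t hN hε C1 ht htQ htp htc
  obtain ⟨hcnt, v₀, h8⟩ := lit1 hN hI h1 h2 h3 h4 h5 h6 h7
  have hε' := hε.tw (rr v₀ 1 (by simp))
  obtain ⟨v, hv, hc, α, φ, h⟩ := coreI2 𝕜 hN hε' h8 h3 hcnt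
  rw [Au_comp] at hv hc h
  exact ⟨_, hc, α, φ, r5_mono (inf_le_inf_right _ (jj_le hε'.range)) h⟩

/-- (Tet) -/
lemma TEet (𝕜 : Type w) [Field 𝕜] (hN : NumD K p (m + 1) ζ) (hε : SHom p L ε)
    (C1 : StmtC1.{u, v}) (C4 : StmtC4.{u, v}) (hI : HI m p K ζ) {e : G} (he : e ∈ Qd ε)
    (heM : e ∉ L ⊔ Subgroup.centralizer (L : Set G)) (hep : e ^ p = 1)
    (hec : ∀ a ∈ Au p ε 1, e * a = a * e) {t : G} (ht : t ∈ Subgroup.normalizer (L : Set G))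
    (htQ : t ∉ Qd ε) (htp : t ^ p = 1) (htc : ∀ a ∈ Au p ε 1, t * a = a * t) :
    ∃ a ∈ Au p ε 1, ∃ v : GU K (m + 1), (∀ c ∈ Au p ε v, (e * a) * c = c * (e * a)) ∧
      (∀ c ∈ Au p ε v, t * c = c * t) ∧
      TC 𝕜 p (L ⊓ Subgroup.centralizer ({e * a} : Set G) ⊓
        Subgroup.centralizer ({t} : Set G)) (Au p ε v) := by
  obtain ⟨g, σ, a, h1, h2, h3, h4, h5, h6, h7⟩ := exists_t hN hε C1 ht htQ htp htc
  obtain ⟨hcnt, v₀, h8⟩ := lit1 hN hI h1 h2 h3 h4 h5 h6 h7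
  obtain ⟨a', ha', ζ', s, k1, k2, k3, k4, k5, k6, k7⟩ := exists_e hN hε C4 he heM hep hec
  have hst : ζ' * star ζ' = 1 := by
    have := norm_of_diag k3 (Fin.last m)
    simpa using this
  have hs := k3.trans (last_RR ζ')
  have hε' := hε.tw (rr v₀ 1 (by simp))
  have hc' := cent_jj (ε := ε.comp (cjU (rr v₀ 1 (by simp)))) (e₁ := e * a') hst hs (fun x => by
    show (e * a') * ε (cjU _ x) * (e * a')⁻¹ = ε (cjU _ (cjU s x))
    rw [k4, cjU_cjU, cjU_cjU, comm_rr hs])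
  obtain ⟨v, hv, hc, α, φ, h⟩ := coreI2 𝕜 hN hε' h8 h3 hcnt
  rw [Au_comp] at hv hc h
  refine ⟨a', ha', _, fun c hcc => hc' c (hv hcc), hc, α, φ,
    r5_mono (inf_le_inf_right _ (le_inf (jj_le hε'.range) ?_)) h⟩
  intro x hx
  rw [Subgroup.mem_centralizer_singleton_iff]
  exact (hc' x hx).symm

/-- (St) -/
lemma TESt (𝕜 : Type w) [Field 𝕜] (hN : NumD K p (m + 1) ζ) (hε : SHom p L ε)
    (C1 : StmtC1.{u, v}) (hI : HI m p K ζ) {t : G} (ht : t ∈ Subgroup.normalizer (L : Set G))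
    (htQ : t ∉ Qd ε) (htp : t ^ p = 1) (htc : ∀ a ∈ Au p ε 1, t * a = a * t) :
    ∃ (v : GU K (m + 1)) (y : G), y * t⁻¹ ∈ L ∧ y ^ p = 1 ∧ (∀ c ∈ Au p ε v, y * c = c * y) ∧
      TC 𝕜 p (L ⊔ Subgroup.zpowers t) (Au p ε v ⊔ Subgroup.zpowers y) := by
  obtain ⟨g, σ, a, h1, h2, h3, h4, h5, h6, h7⟩ := exists_t hN hε C1 ht htQ htp htc
  obtain ⟨hcnt, v₀, h8⟩ := lit1 hN hI h1 h2 h3 h4 h5 h6 h7
  have hε' := hε.tw (rr v₀ 1 (by simp))
  obtain ⟨v, y, hv, hy, hyp, hc, α, φ, h⟩ := coreI3 𝕜 hN hε' h8 h3 htp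
    (fun h => htQ (le_QD hε.range (Subgroup.mem_sup_left h))) hcnt
  rw [Au_comp] at hv hc h
  exact ⟨_, y, jj_le hε'.range hy, hyp, hc, α, φ, r5_mono (sup_le_sup_right (jj_le hε'.range) _) h⟩

/-- (Ste) -/
lemma TESte (𝕜 : Type w) [Field 𝕜] (hN : NumD K p (m + 1) ζ) (hε : SHom p L ε)
    (C1 : StmtC1.{u, v}) (C4 : StmtC4.{u, v}) (hI : HI m p K ζ) {e : G} (he : e ∈ Qd ε)
    (heM : e ∉ L ⊔ Subgroup.centralizer (L : Set G)) (hep : e ^ p = 1)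
    (hec : ∀ a ∈ Au p ε 1, e * a = a * e) {t : G} (ht : t ∈ Subgroup.normalizer (L : Set G))
    (htQ : t ∉ Qd ε) (htp : t ^ p = 1) (htc : ∀ a ∈ Au p ε 1, t * a = a * t)
    (het : e * t = t * e) :
    ∃ a ∈ Au p ε 1, ∃ (v : GU K (m + 1)) (y : G), y * t⁻¹ ∈ L ∧ y ^ p = 1 ∧
      (∀ c ∈ Au p ε v, y * c = c * y) ∧ (∀ c ∈ Au p ε v, (e * a) * c = c * (e * a)) ∧
      (e * a) * y = y * (e * a) ∧
      TC 𝕜 p ((L ⊔ Subgroup.zpowers t) ⊓ Subgroup.centralizer ({e * a} : Set G))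
        (Au p ε v ⊔ Subgroup.zpowers y) := by
  obtain ⟨g, σ, a, h1, h2, h3, h4, h5, h6, h7⟩ := exists_t hN hε C1 ht htQ htp htc
  obtain ⟨hcnt, v₀, h8⟩ := lit1 hN hI h1 h2 h3 h4 h5 h6 h7
  obtain ⟨a', ha', ζ', s, k1, k2, k3, k4, k5, k6, k7⟩ := exists_e hN hε C4 he heM hep hec
  have hst : ζ' * star ζ' = 1 := by
    have := norm_of_diag k3 (Fin.last m)
    simpa using this
  have hs := k3.trans (last_RR ζ')
  have hε' := hε.tw (rr v₀ 1 (by simp))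
  have hc' := cent_jj (ε := ε.comp (cjU (rr v₀ 1 (by simp)))) (e₁ := e * a') hst hs (fun x => by
    show (e * a') * ε (cjU _ x) * (e * a')⁻¹ = ε (cjU _ (cjU s x))
    rw [k4, cjU_cjU, cjU_cjU, comm_rr hs])
  obtain ⟨v, y, hv, hy, hyp, hc, α, φ, h⟩ := coreI3 𝕜 hN hε' h8 h3 htp
    (fun h => htQ (le_QD hε.range (Subgroup.mem_sup_left h))) hcnt
  rw [Au_comp] at hv hc h
  -- `t` commutes with `e a`
  have hte : Commute (e * a') t :=
    Commute.mul_left (show Commute e t from het) (show Commute a' t from (htc a' ha').symm)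
  have hye : Commute (e * a') y := by
    have h9 : Commute (e * a') (y * t⁻¹) := hc' _ hy
    have h10 : y = (y * t⁻¹) * t := by group
    rw [h10]
    exact h9.mul_right hte
  refine ⟨a', ha', _, y, jj_le hε'.range hy, hyp, hc, fun c hcc => hc' c (hv hcc), hye.eq, α, φ,
    r5_mono (le_inf (sup_le_sup_right (jj_le hε'.range) _) (sup_le ?_ ?_)) h⟩
  · intro x hx
    rw [Subgroup.mem_centralizer_singleton_iff]
    exact (hc' x hx).symm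
  · rw [Subgroup.zpowers_le, Subgroup.mem_centralizer_singleton_iff]
    exact hte.eq.symm

/-- (S2) -/
lemma TES2 (𝕜 : Type w) [Field 𝕜] (hN : NumD K p (m + 1) ζ) (hε : SHom p L ε)
    (C1 : StmtC1.{u, v}) (C4 : StmtC4.{u, v}) (hII : HII m p K ζ) {e : G} (he : e ∈ Qd ε)
    (heM : e ∉ L ⊔ Subgroup.centralizer (L : Set G)) (hep : e ^ p = 1)
    (hec : ∀ a ∈ Au p ε 1, e * a = a * e) {t : G} (ht : t ∈ Subgroup.normalizer (L : Set G))
    (htQ : t ∉ Qd ε) (htp : t ^ p = 1) (htc : ∀ a ∈ Au p ε 1, t * a = a * t)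
    (het : e * t = t * e) :
    ∃ a ∈ Au p ε 1, ∃ (k : ℕ) (v : GU K (m + 1)) (e' : G), e' * e⁻¹ ∈ L ∧ e' ^ p = 1 ∧
      (∀ c ∈ Au p ε v, e' * c = c * e') ∧
      (∀ c ∈ Au p ε v, (t * e ^ k * a) * c = c * (t * e ^ k * a)) ∧
      (t * e ^ k * a) * e' = e' * (t * e ^ k * a) ∧
      TC 𝕜 p ((L ⊔ Subgroup.zpowers e) ⊓ Subgroup.centralizer ({t * e ^ k * a} : Set G))
        (Au p ε v ⊔ Subgroup.zpowers e') := by
  obtain ⟨g, σ, a, h1, h2, h3, h4, h5, h6, h7⟩ := exists_t hN hε C1 ht htQ htp htc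
  obtain ⟨a', ha', ζ', s, k1, k2, k3, k4, k5, k6, k7⟩ := exists_e hN hε C4 he heM hep hec
  obtain ⟨hσ', k, u, d, hd, hds, hcnt⟩ := lit2 hN hII h1 h2 h3 h4 h5 h6 h7 k1 k2 k3 k4
  have hte : Commute t (e * a') :=
    Commute.mul_right (show Commute t e from het.symm) (show Commute t a' from htc a' ha')
  have hte1 : t * (e * a') ^ k * (e * a') = e * a' * (t * (e * a') ^ k) :=
    ((hte.mul_left ((Commute.refl (e * a')).pow_left k)).eq)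
  obtain ⟨v, e', j1, j2, j3, j4, j5, j6⟩ := coreII2 𝕜 (P2_of hN hε k1 k2 k3 k7 k5 k6 u)
    (Dg_of k2 k3) hd hσ' hte1 hds hcnt
  rw [Au_comp] at j3 j4 j6
  have haL := Au_le ε hε.range _ ha'
  have hk : t * e ^ k * a' ^ k = t * (e * a') ^ k := by
    have h8 : Commute e a' := hec a' ha'
    rw [h8.mul_pow, mul_assoc]
  refine ⟨a' ^ k, pow_mem ha' k, k, _, e', ?_, j2, j3, ?_, ?_, ?_⟩
  · have h5 : e' * e⁻¹ = (e' * (e * a')⁻¹) * a' := by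
      rw [hec a' ha']
      group
    rw [h5]
    exact mul_mem j1 haL
  · rw [hk]; exact j4
  · rw [hk]; exact j5
  · rw [hk]
    rwa [sup_zpowers_mul haL] at j6

/-- (Sett) -/
lemma TESett (𝕜 : Type w) [Field 𝕜] (hN : NumD K p (m + 1) ζ) (hε : SHom p L ε)
    (C1 : StmtC1.{u, v}) (C4 : StmtC4.{u, v}) (hII : HII m p K ζ) {e : G} (he : e ∈ Qd ε)
    (heM : e ∉ L ⊔ Subgroup.centralizer (L : Set G)) (hep : e ^ p = 1)
    (hec : ∀ a ∈ Au p ε 1, e * a = a * e) {t : G} (ht : t ∈ Subgroup.normalizer (L : Set G))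
    (htQ : t ∉ Qd ε) (htp : t ^ p = 1) (htc : ∀ a ∈ Au p ε 1, t * a = a * t)
    (het : e * t = t * e) :
    ∃ (v : GU K (m + 1)) (e' t' : G), e' * e⁻¹ ∈ L ∧ t' * t⁻¹ ∈ L ⊔ Subgroup.zpowers e ∧
      e' ^ p = 1 ∧ t' ^ p = 1 ∧ (∀ c ∈ Au p ε v, e' * c = c * e') ∧
      (∀ c ∈ Au p ε v, t' * c = c * t') ∧ e' * t' = t' * e' ∧
      TC 𝕜 p (L ⊔ Subgroup.zpowers e ⊔ Subgroup.zpowers t)
        (Au p ε v ⊔ Subgroup.zpowers e' ⊔ Subgroup.zpowers t') := by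
  obtain ⟨g, σ, a, h1, h2, h3, h4, h5, h6, h7⟩ := exists_t hN hε C1 ht htQ htp htc
  obtain ⟨a', ha', ζ', s, k1, k2, k3, k4, k5, k6, k7⟩ := exists_e hN hε C4 he heM hep hec
  obtain ⟨hσ', k, u, d, hd, hds, hcnt⟩ := lit2 hN hII h1 h2 h3 h4 h5 h6 h7 k1 k2 k3 k4
  have haL := Au_le ε hε.range _ ha'
  have hte : Commute t (e * a') :=
    Commute.mul_right (show Commute t e from het.symm) (show Commute t a' from htc a' ha')
  have hte1 : t * (e * a') ^ k * (e * a') = e * a' * (t * (e * a') ^ k) :=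
    ((hte.mul_left ((Commute.refl (e * a')).pow_left k)).eq)
  have htk : (t * (e * a') ^ k) ^ p = 1 := by
    rw [(hte.pow_right k).mul_pow, htp, one_mul, ← pow_mul, mul_comm, pow_mul, k5, one_pow]
  have hsup : L ⊔ Subgroup.zpowers (e * a') = L ⊔ Subgroup.zpowers e := sup_zpowers_mul haL
  have hek : (e * a') ^ k ∈ L ⊔ Subgroup.zpowers e := by
    rw [← hsup]
    exact Subgroup.mem_sup_right (pow_mem (Subgroup.mem_zpowers _) k)
  have hQ : L ⊔ Subgroup.zpowers e ≤ QD ε :=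
    sup_le (le_sup_left.trans (le_QD hε.range)) (by rw [Subgroup.zpowers_le]; exact he)
  have hnot : t * (e * a') ^ k ∉ L ⊔ Subgroup.zpowers (e * a') := by
    intro h
    rw [hsup] at h
    apply htQ
    have h8 : t = (t * (e * a') ^ k) * ((e * a') ^ k)⁻¹ := by rw [mul_inv_cancel_right]
    have h9 := hQ (mul_mem h (inv_mem hek))
    rw [← h8] at h9
    exact h9
  obtain ⟨v, e', y, j1, j2, j3, j4, j5, j6, j7, j8⟩ := coreII3 𝕜
    (P2_of hN hε k1 k2 k3 k7 k5 k6 u) (Dg_of k2 k3) hd hσ' hte1 hds htk hnot hcnt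
  rw [Au_comp] at j5 j6 j8
  rw [hsup] at j3 j8
  refine ⟨_, e', y, ?_, ?_, j2, j4, j5, j6, j7, ?_⟩
  · have h5 : e' * e⁻¹ = (e' * (e * a')⁻¹) * a' := by
      rw [hec a' ha']
      group
    rw [h5]
    exact mul_mem j1 haL
  · have h8 : y * t⁻¹ = (y * (t * (e * a') ^ k)⁻¹) * (e * a') ^ k := by
      rw [(hte.pow_right k).eq]
      group
    rw [h8]
    exact mul_mem j3 hek
  · rwa [sup_zpowers_mul hek] at j8

/-- **The theorem.** -/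
theorem locTopF_of_C (𝕜 : Type w) [Field 𝕜] (C1 : StmtC1.{u, v}) (C2 : StmtC2.{u, v})
    (C3 : StmtC3.{u, v}) (C4 : StmtC4.{u, v}) (hN : NumD K p (m + 1) ζ)
    (hI : HI m p K ζ) (hII : HII m p K ζ) (ht1 : 0 < AS.t (Fr K m))
    (ht2 : 0 < AS.t (Fr K (m + 1))) (hε : SHom p L ε) : LocTopF 𝕜 p L := by
  have hu : ∀ u : GU K (m + 1), Au p (ε.comp (cjU u)) 1 = Au p ε u := fun u => by
    rw [Au_comp, mul_one]
  have hmem : ∀ u v : GU K (m + 1), Au p (ε.comp (cjU u)) v ∈ {A | ∃ u, A = Au p ε u} :=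
    fun u v => ⟨u * v, Au_comp ε u v⟩
  refine locTopF_of2 𝕜 (Q := QD ε) (𝒜 := {A | ∃ u, A = Au p ε u}) (N := p ^ (m - 1))
    (le_QD hε.range) (fun x hx => H38.Qd_norm hε.range hx) ⟨_, 1, rfl⟩ ?_ (C2 hN hε).1 ?_ ?_ ?_
    ?_ ?_ ?_ ?_ ?_ ?_ ?_ ?_ ?_
  · rintro _ ⟨u, rfl⟩
    exact ⟨Au_le ε hε.range u, (Au_ApS hN hε u).1, (Au_ApS hN hε u).2⟩
  · rintro _ ⟨u, rfl⟩ l hl hlp hlc
    rw [← hu u] at hlc ⊢
    exact (C2 hN (hε.tw u)).2 l hl hlp hlc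
  · rintro _ ⟨u, rfl⟩ e he x hx hep hxp hex hec hxc heM
    rw [← hu u] at hec hxc
    exact (C3 hN (hε.tw u)).1 e ((Qd_tw u).2 he) x ((Qd_tw u).2 hx) hep hxp hex hec hxc heM
  · rintro _ ⟨u, rfl⟩ t ht x hx htp hxp htx htc hxc htQ
    rw [← hu u] at htc hxc
    obtain ⟨k, hk⟩ := (C3 hN (hε.tw u)).2 t ht x hx htp hxp htx htc hxc
      (fun h => htQ ((Qd_tw u).1 h))
    exact ⟨k, (Qd_tw u).1 hk⟩
  · obtain ⟨v, h⟩ := TE1 𝕜 hN hε ht1
    exact ⟨_, ⟨v, rfl⟩, h⟩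
  · rintro _ ⟨u, rfl⟩ e he heM hep hec
    rw [← hu u] at hec ⊢
    obtain ⟨a, ha, v, h1, h2⟩ := TEe 𝕜 hN (hε.tw u) C4 ht1 ((Qd_tw u).2 he) heM hep hec
    exact ⟨a, ha, _, hmem u v, h1, h2⟩
  · rintro _ ⟨u, rfl⟩ t ht htQ htp htc
    rw [← hu u] at htc ⊢
    obtain ⟨v, h1, h2⟩ := TEt 𝕜 hN (hε.tw u) C1 hI ht (fun h => htQ ((Qd_tw u).1 h)) htp htc
    refine ⟨1, one_mem _, _, hmem u v, ?_, ?_⟩
    · rw [mul_one]; exact h1
    · rw [mul_one]; exact h2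
  · rintro _ ⟨u, rfl⟩ e he heM hep hec t ht htQ htp htc het
    rw [← hu u] at hec htc ⊢
    obtain ⟨a, ha, v, h1, h2, h3⟩ := TEet 𝕜 hN (hε.tw u) C1 C4 hI ((Qd_tw u).2 he) heM hep hec ht
      (fun h => htQ ((Qd_tw u).1 h)) htp htc
    refine ⟨a, ha, 1, one_mem _, 0, _, hmem u v, h1, ?_, ?_⟩
    · rw [pow_zero, mul_one, mul_one]; exact h2
    · rw [pow_zero, mul_one, mul_one]; exact h3
  · rintro _ ⟨u, rfl⟩ e he heM hep hec
    rw [← hu u] at hec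
    obtain ⟨v, e', h1, h2, h3, h4⟩ := TESe 𝕜 hN (hε.tw u) C4 ht2 ((Qd_tw u).2 he) heM hep hec
    exact ⟨_, hmem u v, e', h1, h2, h3, h4⟩
  · rintro _ ⟨u, rfl⟩ e he heM hep hec t ht htQ htp htc het
    rw [← hu u] at hec htc ⊢
    obtain ⟨a, ha, k, v, e', h1, h2, h3, h4, h5, h6⟩ := TES2 𝕜 hN (hε.tw u) C1 C4 hII
      ((Qd_tw u).2 he) heM hep hec ht (fun h => htQ ((Qd_tw u).1 h)) htp htc het
    exact ⟨a, ha, k, _, hmem u v, e', h1, h2, h3, h4, h5, h6⟩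
  · rintro _ ⟨u, rfl⟩ t ht htQ htp htc
    rw [← hu u] at htc
    obtain ⟨v, y, h1, h2, h3, h4⟩ := TESt 𝕜 hN (hε.tw u) C1 hI ht
      (fun h => htQ ((Qd_tw u).1 h)) htp htc
    exact ⟨_, hmem u v, y, h1, h2, h3, h4⟩
  · rintro _ ⟨u, rfl⟩ e he heM hep hec t ht htQ htp htc het
    rw [← hu u] at hec htc ⊢
    obtain ⟨a, ha, v, y, h1, h2, h3, h4, h5, h6⟩ := TESte 𝕜 hN (hε.tw u) C1 C4 hI
      ((Qd_tw u).2 he) heM hep hec ht (fun h => htQ ((Qd_tw u).1 h)) htp htc het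
    exact ⟨a, ha, _, hmem u v, y, h1, h2, h3, h4, h5, h6⟩
  · rintro _ ⟨u, rfl⟩ e he heM hep hec t ht htQ htp htc het
    rw [← hu u] at hec htc
    obtain ⟨v, e', t', h1, h2, h3, h4, h5, h6, h7, h8⟩ := TESett 𝕜 hN (hε.tw u) C1 C4 hII
      ((Qd_tw u).2 he) heM hep hec ht (fun h => htQ ((Qd_tw u).1 h)) htp htc het
    exact ⟨_, hmem u v, e', t', h1, h2, h3, h4, h5, h6, h7, h8⟩

end

end

end Vale.Agent.P240.R2.H928
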