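import Vale.Agent.P240.R2.H928.W2
import Vale.Agent.P240.R2.H986.E7TF

/-!
**`LocTopF` for `PSU_n(5)`, `n ≥ 6` even, `p = 2`**, with the solutions as a hypothesis.
-/

set_option autoImplicit false
set_option linter.all false

namespace Vale.Agent.P240.R2.H928

open Matrix Vale.Agent.P240.R2.AS Vale.Agent.P240.R2.H38 Vale.Agent.P240.R2.H487
open Vale.Agent.P240.R2.H986.E
open Vale.Agent.P240.R2.H938 (NumD SHom StmtC1 StmtC2 StmtC3 StmtC4 SZ)
open scoped Classical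

universe u v w

noncomputable section

variable {K : Type u} [Field K] [Fintype K] [StarRing K] {n m q : ℕ}

/-- `q = 1 mod 4` -/
lemma lit_one (h : Fld K q) (hq4 : q % 4 = 1) (hn : 0 < n) {σ : K ≃+* K}
    (hσ : ∀ x, σ x = star x) (a : Fin n → K) (ha : ∀ i, a i * star (a i) = 1) :
    ∃ (k : ℕ) (u : GU K n), diagonal (fun i => a i * (if i.1 + 1 = n then (-1) ^ k else 1)) *
      u.1.map σ = u.1 := by
  have hEH : StmtEH.{u} := H945.EH.stmtEH
  have hα := NSq_neg h.two_ne h.2.2 hq4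
  have hP : (∏ i, a i) * star (∏ i, a i) = 1 := by
    rw [star_prod, ← Finset.prod_mul_distrib]
    exact Finset.prod_eq_one fun i _ => ha i
  have hprod : ∀ β : K, ∏ i : Fin n, (if i.1 + 1 = n then β else 1) = β := by
    intro β
    rw [Finset.prod_eq_single (⟨n - 1, by omega⟩ : Fin n)]
    · rw [if_pos (by show n - 1 + 1 = n; omega)]
    · intro i _ hi
      rw [if_neg]
      intro h1
      apply hi
      apply Fin.ext
      show i.1 = n - 1
      omega
    · intro h1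
      exact absurd (Finset.mem_univ _) h1
  rcases hα.cases hP with ⟨x, hx, hx2⟩ | ⟨x, hx, hx2⟩
  · obtain ⟨u, hu⟩ := (hEH K q h n (by omega) a ha).1 ⟨x, hx, hx2⟩
    refine ⟨0, u, ?_⟩
    simp only [pow_zero, ite_self, mul_one]
    rw [map_of hσ, hu]
  · obtain ⟨u, hu⟩ := (hEH K q h n (by omega) (fun i => a i * (if i.1 + 1 = n then (-1) ^ 1 else 1)) (by
      intro i
      split_ifs
      · rw [pow_one, star_mul', star_neg, star_one]
        linear_combination ha i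
      · rw [mul_one]; exact ha i)).1 ⟨x, hx, by
      rw [Finset.prod_mul_distrib, hprod, hx2]; ring⟩
    exact ⟨1, u, by rw [map_of hσ, hu]⟩

/-- `HI` -/
theorem hI5 (h : Fld K q) (hmo : Odd m) (hS : SSol (⊤ : Subgroup (GU K m))) :
    HI m 2 K (-1) := by
  intro σ hσ hσ2 hσ1 _ a ha hprod
  exact ⟨H38.h90_two h.2.1 h.2.2 h.1 hmo σ hσ hσ2 hσ1 a ha hprod, rfl, rfl, h.aut hσ2 hσ1, hS⟩

/-- `HII` -/
theorem hII5 (h : Fld K q) (hq4 : q % 4 = 1) (hS : SSol (SZ K (m + 1) 2)) :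
    HII m 2 K (-1) := by
  intro σ hσ hσ2 hσ1 _ a ha hprod ζ' hζ' hζ2
  have hz : ζ' = -1 := by
    have h1 : (ζ' - 1) * (ζ' + 1) = 0 := by linear_combination hζ2
    rcases mul_eq_zero.1 h1 with h2 | h2
    · exact absurd (sub_eq_zero.1 h2) hζ'
    · exact eq_neg_of_add_eq_zero_left h2
  subst hz
  have hlast : ∀ (i : Fin (m + 1)) (x y : K), (if i = Fin.last m then x else y) =
      if i.1 + 1 = m + 1 then x else y := by
    intro i x y
    by_cases h1 : i = Fin.last m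
    · rw [if_pos h1, if_pos (by rw [h1]; rfl)]
    · rw [if_neg h1, if_neg]
      intro h2
      apply h1
      apply Fin.ext
      show i.1 = m
      omega
  obtain ⟨k, u, hu⟩ := lit_one h hq4 (Nat.succ_pos m) (h.aut hσ2 hσ1) a ha
  refine ⟨k, u, 1, 1, ?_, rfl, rfl, h.aut hσ2 hσ1, hS⟩
  simp only [hlast]
  rw [hu, one_smul]
  exact (mul_one _).symm

/-- **`PSU_n(5)`, `n ≥ 6` even** -/
theorem locTopF5 (h1 : StmtI.{0}) (h2 : StmtII.{0}) {K : Type} [Field K] [Fintype K] [StarRing K]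
    {n : ℕ} {G : Type v} [Group G] [Finite G] (𝕜 : Type w) [Field 𝕜] (hn : Even n) (hn6 : 6 ≤ n)
    (hK : Nat.card K = 5 ^ 2) (hs : ∀ x : K, star x = x ^ 5) {L : Subgroup G}
    (e : L ≃* AS.PSU K n) : LocTopF 𝕜 2 L := by
  haveI : Fact (Nat.Prime 2) := ⟨Nat.prime_two⟩
  have hF : Fld K 5 := ⟨by decide, hK, hs⟩
  have hpn : ¬ 2 * n.gcd (5 + 1) ∣ 5 + 1 := by
    intro h
    have h3 : 2 ∣ n.gcd 6 := Nat.dvd_gcd hn.two_dvd (by norm_num)
    have h4 : 2 * 2 ∣ 6 := (Nat.mul_dvd_mul_left 2 h3).trans h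
    omega
  obtain ⟨m, rfl⟩ : ∃ m, n = m + 1 := ⟨n - 1, by omega⟩
  have hmo : Odd m := by
    rcases Nat.even_or_odd m with h | h
    · exact absurd hn (Nat.not_even_iff_odd.2 h.add_one)
    · exact h
  have hN := H613.EI.numD_two (K := K) (n := m + 1) (by omega) hn (by decide) (by omega) hK hs hpn
  obtain ⟨ε, hε⟩ := H613.EI.sHom_of (n := m + 1) (q := 5) (by omega) hK hs hF.two_ne (by omega) L e.symm 2
  exact locTopF_of_C 𝕜 H38.stmtC1 H38.stmtC2 H38.stmtC3 (H275.stmtC4_of H38.stmtC1) hN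
    (hI5 hF hmo (h1 K hK hs m hmo (by omega))) (hII5 hF (by norm_num) (h2 K hK hs (m + 1) hn hn6))
    (t_pos (q := 5) (by omega) (by omega) hK hs) (t_pos (q := 5) (by omega) (by omega) hK hs) hε

/-- **`PSU_n(5)`, `n ≥ 6` even**, in the form `TopFac` -/
theorem topFac5 (h1 : StmtI.{0}) (h2 : StmtII.{0}) (𝕜 : Type v) [Field 𝕜] {L : Type u}
    [Group L] {n : ℕ} {K : Type} [Field K] [Fintype K] [StarRing K] (hn : Even n) (hn6 : 6 ≤ n)
    (hK : Nat.card K = 5 ^ 2) (hs : ∀ x : K, star x = x ^ 5) (e : L ≃* AS.PSU K n) :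
    TopFac 𝕜 2 L := by
  intro G _ _ M ⟨f⟩
  exact locTopF5 h1 h2 𝕜 hn hn6 hK hs (f.symm.trans e)

end

end Vale.Agent.P240.R2.H928
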