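import Vale.Agent.P240.R2.H928.W3
import Vale.Agent.P240.H138.T6

/-!
**`PSU_n(5)`, `n ≥ 6` even, `p = 2`** in the literal form of the list of statements.
-/

set_option autoImplicit false
set_option linter.all false

namespace Vale.Agent.P240.R2.H928

open Vale.Agent.P240.R2 Vale.Agent.P240.R2.H487

universe u v

/-- block (U5), literal form -/
theorem stmtU5_lit (h1 : StmtI.{0}) (h2 : StmtII.{0}) : H138.T6.StmtU5.{u, v} := by
  intro K _ _ _ n 𝕜 _ hK hs hn hn6 L _ _ e
  exact topFac5 h1 h2 𝕜 hn hn6 (by rw [hK]; norm_num) hs e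

end Vale.Agent.P240.R2.H928
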